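import Vale.Agent.P218WU.Planar
import Vale.Agent.P218UX.Mono
import Vale.Agent.P218UU.Slow
import Vale.Agent.P218UT.Cyl

/-! Static facts: continuity of the Gaussian density ratios, and the density of a flat measure
which is carried by a plane. -/

open MeasureTheory Set Filter Topology Metric
open scoped ENNReal NNReal RealInnerProductSpace ContDiff

namespace Vale.Agent.P218WY

open Vale.Agent.P218UA Vale.Agent.P218UM Vale.Agent.P218WU
open Vale.Agent.P218 (WeakTendsto)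

variable {μ ν : Measure E3} {A : ℝ}

lemma cont_gd (hA : 0 ≤ A) (h : AR μ A) (x : E3) {r : ℝ} (hr : 0 < r) :
    ContinuousAt (fun p : E3 × ℝ => gd μ p.1 p.2) (x, r) := by
  refine ContinuousAt.div ?_ (by fun_prop) (by positivity)
  refine continuousAt_of_dominated
    (bound := fun y => Real.exp 1 * Real.exp (-‖y - x‖ ^ 2 / (8 * (2 * r) ^ 2)))
    (Eventually.of_forall fun p => by fun_prop) ?_
    ((P218UX.tail hA h x (by positivity)).1.const_mul _) (Eventually.of_forall fun y => ?_)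
  · filter_upwards [prod_mem_nhds (ball_mem_nhds x hr) (Ioo_mem_nhds hr (lt_two_mul_self hr))]
      with p hp
    refine Eventually.of_forall fun y => ?_
    have h1 : ‖p.1 - x‖ < r := mem_ball_iff_norm.1 hp.1
    have h2 := hp.2.1
    have h3 := hp.2.2
    rw [Real.norm_eq_abs, abs_of_pos (Real.exp_pos _), ← Real.exp_add, Real.exp_le_exp]
    have e1 : ‖y - p.1‖ ^ 2 / (4 * (2 * r) ^ 2) ≤ ‖y - p.1‖ ^ 2 / (4 * p.2 ^ 2) :=
      div_le_div_of_nonneg_left (sq_nonneg _) (by positivity) (by nlinarith)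
    have e2 : ‖y - x‖ ≤ ‖y - p.1‖ + ‖p.1 - x‖ := norm_sub_le_norm_sub_add_norm_sub _ _ _
    have e3 : ‖y - x‖ ^ 2 ≤ 2 * ‖y - p.1‖ ^ 2 + 2 * r ^ 2 := by
      nlinarith [norm_nonneg (y - x), norm_nonneg (y - p.1), norm_nonneg (p.1 - x),
        sq_nonneg (‖y - p.1‖ - r)]
    have e4 : ‖y - x‖ ^ 2 / (8 * (2 * r) ^ 2) ≤ ‖y - p.1‖ ^ 2 / (4 * (2 * r) ^ 2) + 1 := by
      rw [div_add_one (by positivity), div_le_div_iff₀ (by positivity) (by positivity)]
      nlinarith [mul_le_mul_of_nonneg_right e3 (sq_nonneg r), sq_nonneg (r ^ 2)]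
    rw [neg_div, neg_div]
    linarith
  · exact Real.continuous_exp.continuousAt.comp
      (ContinuousAt.div (by fun_prop) (by fun_prop) (by positivity))

lemma tendsto_gd (hA : 0 ≤ A) (h : AR μ A) {ι : Type*} {l : Filter ι} {x : ι → E3} {r : ι → ℝ}
    {x₀ : E3} {r₀ : ℝ} (hr₀ : 0 < r₀) (hx : Tendsto x l (𝓝 x₀)) (hr : Tendsto r l (𝓝 r₀)) :
    Tendsto (fun i => gd μ (x i) (r i)) l (𝓝 (gd μ x₀ r₀)) := by
  have := (cont_gd hA h x₀ hr₀).tendsto.comp (hx.prodMk_nhds hr)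
  simpa only [Function.comp_def] using this

lemma mk_le_gd (hA : 0 ≤ A) (h : AR μ A) (x : E3) {ρ : ℝ} (hρ : 0 < ρ) :
    mk μ x (3 * ρ) ≤ 16 / 9 * gd μ x ρ := by
  have hπ := Real.pi_pos
  have h1 : ∫ y, kk ((3 * ρ)⁻¹ • (y - x)) ∂μ
      ≤ ∫ y, 4 / Real.pi * Real.exp (-‖y - x‖ ^ 2 / (4 * ρ ^ 2)) ∂μ := by
    refine integral_mono_of_nonneg (Eventually.of_forall fun y => kk_nonneg _)
      ((P218UX.integrable_gauss hA h x hρ).const_mul _) (Eventually.of_forall fun y => ?_)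
    refine mul_le_mul_of_nonneg_left ?_ (by positivity)
    have e : ‖(3 * ρ)⁻¹ • (y - x)‖ ^ 2 = ‖y - x‖ ^ 2 / (9 * ρ ^ 2) := by
      rw [norm_smul, mul_pow, norm_inv, inv_pow, Real.norm_eq_abs, sq_abs]
      field_simp
      ring
    rw [e]
    have h2 : max (1 - ‖y - x‖ ^ 2 / (9 * ρ ^ 2)) 0 ≤ Real.exp (-(‖y - x‖ ^ 2 / (9 * ρ ^ 2))) :=
      max_le (by linarith [Real.add_one_le_exp (-(‖y - x‖ ^ 2 / (9 * ρ ^ 2)))]) (Real.exp_pos _).le
    refine (pow_le_pow_left₀ (le_max_right _ _) h2 3).trans ?_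
    rw [← Real.exp_nat_mul, Real.exp_le_exp, neg_div]
    have h3 : ‖y - x‖ ^ 2 / (4 * ρ ^ 2) ≤ ‖y - x‖ ^ 2 / (3 * ρ ^ 2) :=
      div_le_div_of_nonneg_left (sq_nonneg _) (by positivity) (by nlinarith [sq_nonneg ρ])
    have h4 : ‖y - x‖ ^ 2 / (3 * ρ ^ 2) = 3 * (‖y - x‖ ^ 2 / (9 * ρ ^ 2)) := by
      field_simp
      norm_num
    push_cast
    linarith
  rw [integral_const_mul] at h1
  rw [P218UA.mk, gd]
  refine (div_le_div_of_nonneg_right h1 (by positivity)).trans_eq ?_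
  field_simp
  ring

lemma mk_small {z : E3} {r δ : ℝ} (hr : 0 < r) (h : NearPl μ z r 10 δ) (hδ : δ ≤ 1 / 400)
    (h1 : mk μ z (10 * r) < 19 / 10) : mk μ z r ≤ 1 + 8 * δ := by
  obtain ⟨k, a, h⟩ := NearPl.mk_near P218UT.cylDens hr h
  have h2 := abs_le.1 (h 1 le_rfl (by norm_num))
  have h3 := abs_le.1 (h 10 (by norm_num) le_rfl)
  simp only [one_mul, div_one] at h2
  by_contra! hlt
  obtain ⟨i, j, hij, hi, hj⟩ := two_of_one_lt (a := a) (by linarith)
  have h4 : ∀ i, |a i| < 1 → (99 / 100 : ℝ) ^ 4 ≤ max (1 - (a i / 10) ^ 2) 0 ^ 4 := fun i hi => by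
    refine pow_le_pow_left₀ (by norm_num) (le_max_of_le_left ?_) 4
    have : a i ^ 2 ≤ 1 := by
      rw [← sq_abs]
      exact pow_le_one₀ (abs_nonneg _) hi.le
    nlinarith
  have h5 : max (1 - (a i / 10) ^ 2) 0 ^ 4 + max (1 - (a j / 10) ^ 2) 0 ^ 4
      ≤ ∑ i, max (1 - (a i / 10) ^ 2) 0 ^ 4 := by
    rw [← Finset.sum_pair (f := fun i => max (1 - (a i / 10) ^ 2) 0 ^ 4) hij]
    exact Finset.sum_le_sum_of_subset_of_nonneg (Finset.subset_univ _) fun _ _ _ => by positivity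
  have h6 := h4 i hi
  have h7 := h4 j hj
  norm_num at h6 h7 h3 h5 h1
  linarith

lemma lint_kk (μ : Measure E3) [IsLocallyFiniteMeasure μ] (x : E3) {r : ℝ} (hr : 0 < r) :
    ∫⁻ y, ENNReal.ofReal (kk (r⁻¹ • (y - x))) ∂μ = ENNReal.ofReal (mk μ x r * r ^ 2) := by
  rw [← ofReal_integral_eq_lintegral_ofReal (integrable_kk μ x hr)
    (Eventually.of_forall fun y => kk_nonneg _), P218UA.mk, div_mul_cancel₀ _ (by positivity)]

lemma kk_symm (r : ℝ) (x y : E3) : kk (r • (x - y)) = kk (r • (y - x)) := by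
  simp only [kk, norm_smul, norm_sub_rev x y]

lemma ball_le (hν : AR ν A) {n : E3} (hn : ‖n‖ = 1) (hs : ∀ y ∈ ν.support, ⟪y, n⟫ = 0)
    {R δ r : ℝ} (hδ : 0 < δ) (hr : 0 < r) (hr1 : r ≤ 1)
    (he : Real.exp (r * (2 * R + 1) / 4) ≤ 1 + δ)
    (h : ∀ z : E3, ‖z‖ ≤ R + 1 → mk ν z r ≤ 1 + δ) :
    ∫⁻ z in closedBall 0 R, ENNReal.ofReal (g4 z) ∂ν
      ≤ ENNReal.ofReal ((1 + δ) ^ 2 * (4 * Real.pi)) := by
  have hπ := Real.pi_pos
  have := hν.locFin
  have := locFin_plane hn 0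
  set P : Measure E3 := (μHE[2] : Measure E3).restrict {z | ⟪z, n⟫ = 0} with hP
  have hC := (P218UT.cylDens n hn).2.2
  have p1 : ∀ z : E3, ⟪z, n⟫ = 0 →
      ∫⁻ x, ENNReal.ofReal (kk (r⁻¹ • (x - z))) ∂P = ENNReal.ofReal (r ^ 2) := fun z hz => by
    rw [lint_kk P z hr, (hC z r 0 hr).2, hz]
    simp
  have p2 : ∫ x, g4 x ∂P = 4 * Real.pi := by
    have h1 := (hC 0 1 0 one_pos).1
    rw [gd_zero, div_eq_iff (by positivity)] at h1
    simpa using h1
  have p3 : ∫⁻ x, ENNReal.ofReal (g4 x) ∂P = ENNReal.ofReal (4 * Real.pi) := by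
    rw [← p2, ofReal_integral_eq_lintegral_ofReal
      (Integrable.of_integral_ne_zero (by rw [p2]; positivity))
      (Eventually.of_forall fun x => (g4_pos x).le)]
  have hm : Measurable fun x : E3 => (closedBall (0 : E3) (R + 1)).indicator
      (fun x => ENNReal.ofReal ((1 + δ) * g4 x)) x :=
    ((continuous_const.mul continuous_g4).measurable.ennreal_ofReal).indicator
      measurableSet_closedBall
  have hk : Measurable fun q : E3 × E3 => ENNReal.ofReal (kk (r⁻¹ • (q.1 - q.2))) :=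
    (continuous_kk.comp (by fun_prop)).measurable.ennreal_ofReal
  have hr2 : ENNReal.ofReal (r ^ 2) ≠ 0 := by simpa using hr.ne'
  refine (ENNReal.mul_le_mul_iff_left hr2 ENNReal.ofReal_ne_top).1 ?_
  calc (∫⁻ z in closedBall 0 R, ENNReal.ofReal (g4 z) ∂ν) * ENNReal.ofReal (r ^ 2)
      = ∫⁻ z in closedBall 0 R, ENNReal.ofReal (g4 z) * ENNReal.ofReal (r ^ 2) ∂ν :=
        (lintegral_mul_const' _ _ ENNReal.ofReal_ne_top).symm
    _ ≤ ∫⁻ z in closedBall 0 R, ∫⁻ x, (closedBall (0 : E3) (R + 1)).indicator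
          (fun x => ENNReal.ofReal ((1 + δ) * g4 x)) x
            * ENNReal.ofReal (kk (r⁻¹ • (z - x))) ∂P ∂ν := by
        refine lintegral_mono_ae ?_
        filter_upwards [ae_restrict_mem measurableSet_closedBall,
          ae_restrict_of_ae (Measure.support_mem_ae (μ := ν))] with z hz hz'
        rw [← p1 z (hs z hz'), ← lintegral_const_mul' _ _ ENNReal.ofReal_ne_top]
        refine lintegral_mono fun x => ?_
        rw [kk_symm _ z x]
        by_cases hx : r ≤ ‖x - z‖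
        · simp [kk_scale_zero hr hx]
        push Not at hx
        have hz1 : ‖z‖ ≤ R := mem_closedBall_zero_iff.1 hz
        have hx1 : ‖x‖ ≤ ‖z‖ + r := by linarith [norm_sub_norm_le x z]
        rw [indicator_of_mem (mem_closedBall_zero_iff.2 (by linarith))]
        refine mul_le_mul_left (ENNReal.ofReal_le_ofReal ?_) _
        refine le_trans ?_ (mul_le_mul_of_nonneg_right he (g4_pos x).le)
        rw [g4, g4, ← Real.exp_add, Real.exp_le_exp]
        nlinarith [norm_nonneg x, norm_nonneg z]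
    _ ≤ ∫⁻ z, ∫⁻ x, (closedBall (0 : E3) (R + 1)).indicator
          (fun x => ENNReal.ofReal ((1 + δ) * g4 x)) x
            * ENNReal.ofReal (kk (r⁻¹ • (z - x))) ∂P ∂ν := setLIntegral_le_lintegral _ _
    _ = ∫⁻ x, (closedBall (0 : E3) (R + 1)).indicator
          (fun x => ENNReal.ofReal ((1 + δ) * g4 x)) x * ENNReal.ofReal (mk ν x r * r ^ 2) ∂P := by
        rw [lintegral_lintegral_swap ((hm.comp measurable_snd).mul hk).aemeasurable]
        refine lintegral_congr fun x => ?_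
        rw [lintegral_const_mul _ (continuous_kk_scale x r).measurable.ennreal_ofReal,
          lint_kk ν x hr]
    _ ≤ ∫⁻ x, ENNReal.ofReal ((1 + δ) ^ 2 * r ^ 2) * ENNReal.ofReal (g4 x) ∂P := by
        refine lintegral_mono fun x => ?_
        by_cases hx : x ∈ closedBall (0 : E3) (R + 1)
        · rw [indicator_of_mem hx, ← ENNReal.ofReal_mul (mul_pos (by linarith) (g4_pos x)).le,
            ← ENNReal.ofReal_mul (by positivity)]
          refine ENNReal.ofReal_le_ofReal ?_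
          have h1 := h x (mem_closedBall_zero_iff.1 hx)
          have h2 : 0 ≤ (1 + δ) * g4 x * r ^ 2 := by have := g4_pos x; positivity
          nlinarith [mul_le_mul_of_nonneg_left h1 h2]
        · simp [indicator_of_notMem hx]
    _ = _ := by
        rw [lintegral_const_mul' _ _ ENNReal.ofReal_ne_top, p3, ← ENNReal.ofReal_mul (by positivity),
          ← ENNReal.ofReal_mul (by positivity)]
        congr 1
        ring

/-- a flat measure in a plane without points of higher multiplicity has density at most one -/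
theorem gd_le_one (hA : 0 ≤ A) (hν : AR ν A) (hF : Flat ν) {n : E3} (hn : ‖n‖ = 1)
    (hs : ∀ y ∈ ν.support, ⟪y, n⟫ = 0) (hg : ∀ x r, 0 < r → gd ν x r ≤ 21 / 20) :
    gd ν 0 1 ≤ 1 := by
  have hπ := Real.pi_pos
  have hI : Integrable g4 ν :=
    (P218UX.integrable_gauss hA hν 0 one_pos).congr (Eventually.of_forall fun y => by simp [g4])
  have key : ∀ δ > 0, δ ≤ 1 / 50 → ∫ z, g4 z ∂ν ≤ (1 + δ) ^ 2 * (4 * Real.pi) := by
    intro δ hδ hδ'
    rw [← ENNReal.ofReal_le_ofReal_iff (by positivity), ofReal_integral_eq_lintegral_ofReal hI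
      (Eventually.of_forall fun x => (g4_pos x).le), ← setLIntegral_univ,
      ← iUnion_closedBall_nat (0 : E3), setLIntegral_iUnion_of_directed _
        (Monotone.directed_le fun a b hab => closedBall_subset_closedBall (Nat.cast_le.2 hab))]
    refine iSup_le fun R => ?_
    obtain ⟨r₀, hr₀, h⟩ := hF (R + 1) 10 (δ / 8) (by positivity)
    have h1 : ∀ᶠ r in 𝓝[>] (0 : ℝ), Real.exp (r * (2 * R + 1) / 4) < 1 + δ :=
      mem_nhdsWithin_of_mem_nhds (ContinuousAt.eventually_lt (by fun_prop) continuousAt_const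
        (by simpa using hδ))
    obtain ⟨r, h2, hr, h3⟩ := (h1.and (Ioo_mem_nhdsGT (lt_min hr₀ one_pos))).exists
    refine ball_le hν hn hs hδ hr (h3.le.trans (min_le_right _ _)) h2.le
      fun z hz => ?_
    have h4 := mk_le_gd hA hν z (ρ := 10 * r / 3) (by positivity)
    rw [mul_div_cancel₀ _ (by norm_num)] at h4
    linarith [mk_small hr (h z hz r hr (h3.trans_le (min_le_left _ _))) (by linarith)
      (by linarith [hg z (10 * r / 3) (by positivity)])]
  rw [gd_zero, div_le_one (by positivity)]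
  have h1 : Tendsto (fun δ : ℝ => (1 + δ) ^ 2 * (4 * Real.pi)) (𝓝[>] 0) (𝓝 (4 * Real.pi)) :=
    (Continuous.tendsto' (by fun_prop) _ _ (by simp)).mono_left nhdsWithin_le_nhds
  refine ge_of_tendsto h1 ?_
  filter_upwards [Ioc_mem_nhdsGT (show (0 : ℝ) < 1 / 50 by norm_num)] with δ hδ
  exact key δ hδ.1 hδ.2

end Vale.Agent.P218WY
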