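import Vale.Agent.P218WY.Stat
import Vale.Agent.P218WC.Resc

/-! Weighted monotonicity for convex functions of solutions of the heat equation on the flow, and
the sub-mean value property of tangent flows. -/

open MeasureTheory Set Filter Topology Metric
open scoped ENNReal NNReal RealInnerProductSpace ContDiff

namespace Vale.Agent.P218WY

open Vale.Agent.P218UA Vale.Agent.P218UM Vale.Agent.P218WU Vale.Agent.P218WA Vale.Agent.P218UX
open Vale.Agent.P218 (WeakTendsto)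

/-- a convex approximation of the square of the positive part -/
noncomputable def cv (η v : ℝ) : ℝ := (max v 0 ^ 3 - max (v - η) 0 ^ 3) / (3 * η)

variable {η L : ℝ} {n : E3}

lemma contDiff_cv (η : ℝ) : ContDiff ℝ 2 (cv η) :=
  (contDiff_max_cube.sub (contDiff_max_cube.comp (contDiff_id.sub contDiff_const))).div_const _

lemma dd_cv (hη : 0 < η) (v : ℝ) : 0 ≤ deriv (deriv (cv η)) v := by
  have h1 : deriv (cv η) = fun v => (3 * max v 0 ^ 2 - 3 * max (v - η) 0 ^ 2) / (3 * η) := by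
    funext v
    refine (((hasDerivAt_max_pow 1 v).sub
      ((hasDerivAt_max_pow 1 (v - η)).comp_sub_const v η)).div_const (3 * η)).deriv.trans ?_
    norm_num
  have h2 := ((((hasDerivAt_max_pow 0 v).const_mul 3).sub
    (((hasDerivAt_max_pow 0 (v - η)).comp_sub_const v η).const_mul 3)).div_const (3 * η)).deriv
  rw [h1]
  refine le_of_le_of_eq ?_ h2.symm
  have : max (v - η) 0 ≤ max v 0 := max_le_max_right _ (by linarith)
  refine div_nonneg ?_ (by positivity)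
  simp only [Nat.cast_zero, zero_add, pow_one]
  linarith

lemma cv_zero (hη : 0 < η) {v : ℝ} (h : v ≤ 0) : cv η v = 0 := by
  simp [cv, max_eq_right h, max_eq_right (show v - η ≤ 0 by linarith)]

lemma cv_nonneg (hη : 0 < η) (v : ℝ) : 0 ≤ cv η v :=
  div_nonneg (sub_nonneg.2 (pow_le_pow_left₀ (le_max_right _ _)
    (max_le_max_right _ (by linarith)) 3)) (by positivity)

lemma cv_le (hη : 0 < η) {v u : ℝ} (h : v ≤ u) : cv η v ≤ u ^ 2 := by
  rcases le_total v 0 with h0 | h0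
  · rw [cv_zero hη h0]
    positivity
  refine le_trans ?_ (pow_le_pow_left₀ h0 h 2)
  rw [cv, div_le_iff₀ (by positivity), max_eq_left h0]
  rcases le_total v η with h1 | h1
  · rw [max_eq_right (by linarith)]
    nlinarith [mul_le_mul_of_nonneg_left h1 (sq_nonneg v), mul_nonneg (sq_nonneg v) hη.le]
  · rw [max_eq_left (by linarith)]
    nlinarith [mul_le_mul_of_nonneg_left h1 (sq_nonneg η), mul_nonneg (sq_nonneg η) hη.le]

lemma le_cv (hη : 0 < η) {v : ℝ} (h : η ≤ v) : v ^ 2 - η * v ≤ cv η v := by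
  rw [cv, le_div_iff₀ (by positivity), max_eq_left (by linarith), max_eq_left (by linarith)]
  nlinarith [mul_nonneg (sq_nonneg η) hη.le]

/-- a solution of the heat equation on every flow -/
noncomputable def vv (η L : ℝ) (n : E3) (t : ℝ) (x : E3) : ℝ :=
  L + ⟪x, n⟫ - η * (‖x‖ ^ 2 + 4 * t)

lemma contDiff_vv (η L : ℝ) (n : E3) : ContDiff ℝ 2 fun p : ℝ × E3 => vv η L n p.1 p.2 :=
  (contDiff_const.add (contDiff_snd.inner ℝ contDiff_const)).sub (contDiff_const.mul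
    (((contDiff_norm_sq ℝ).comp contDiff_snd).add (contDiff_const.mul contDiff_fst)))

lemma cont_cv (η L : ℝ) (n : E3) (t : ℝ) : Continuous fun x => cv η (vv η L n t x) :=
  (contDiff_cv η).continuous.comp (by unfold vv; fun_prop)

lemma trT_vv (η L : ℝ) (n : E3) (t : ℝ) (x : E3) {m : E3} (hm : ‖m‖ = 1) :
    trT m (hs (vv η L n t) x) = -(4 * η) := by
  have h1 : gradient (vv η L n t) = fun x => n - (2 * η) • x := by
    funext x
    refine ext_inner_right ℝ fun v => ?_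
    have e := (((((hasFDerivAt_id x).inner ℝ (hasFDerivAt_const n x))).const_add L).sub
      (((hasFDerivAt_id x).norm_sq.add_const (4 * t)).const_mul η)).fderiv
    rw [inner_gradient]
    refine (congrArg (fun f : E3 →L[ℝ] ℝ => f v) e).trans ?_
    rw [inner_sub_left, real_inner_smul_left]
    simp [real_inner_comm]
    ring
  have h2 : hs (vv η L n t) x = (-(2 * η)) • ContinuousLinearMap.id ℝ E3 := by
    rw [hs, h1]
    exact (((hasFDerivAt_id x).const_smul (2 * η)).const_sub n).fderiv.trans (neg_smul _ _).symm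
  rw [trT, trace_eq, h2]
  simp only [smul_apply, ContinuousLinearMap.id_apply, real_inner_smul_left,
    real_inner_self_eq_norm_sq, hm, OrthonormalBasis.norm_eq_one, Fin.sum_univ_three]
  ring

lemma heat_cv (hη : 0 < η) (w : ℝ → E3 → ℝ) {t : ℝ} {x : E3} (hn : ‖gradient (w t) x‖ = 1) :
    heat w (fun t x => cv η (vv η L n t x)) t x ≤ 0 := by
  have h1 : HasDerivAt (fun s => vv η L n s x) (-(η * 4)) t := by
    simpa [vv] using ((((hasDerivAt_id t).const_mul 4).const_add (‖x‖ ^ 2)).const_mul η).const_sub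
      (L + ⟪x, n⟫)
  have h2 := (((contDiff_cv η).differentiable two_ne_zero (vv η L n t x)).hasDerivAt.comp t h1).deriv
  rw [heat, trT_comp (contDiff_cv η).contDiffAt (slice_x (contDiff_vv η L n).contDiffAt),
    trT_vv η L n t x hn]
  have h3 := mul_nonneg (dd_cv hη (vv η L n t x))
    (sub_nonneg.2 (inner_sq_le hn (gradient (vv η L n t) x)))
  refine le_of_eq_of_le (congrArg (· - _) h2) ?_
  linarith

lemma exists_supp (hη : 0 < η) (L : ℝ) (n : E3) (T : ℝ) :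
    ∃ ρ > 0, ∀ t, T ≤ t → ∀ x : E3, ρ < ‖x‖ → cv η (vv η L n t x) = 0 := by
  refine ⟨max 1 ((|L - 4 * η * T| + ‖n‖) / η), by positivity, fun t ht x hx => cv_zero hη ?_⟩
  have h1 := (le_max_left _ _).trans_lt hx
  have h2 := (div_lt_iff₀ hη).1 ((le_max_right _ _).trans_lt hx)
  have h3 := real_inner_le_norm x n
  have h4 := le_abs_self (L - 4 * η * T)
  have h5 := mul_le_mul_of_nonneg_left ht hη.le
  rw [vv]
  nlinarith [mul_le_mul_of_nonneg_left h2.le (norm_nonneg x),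
    mul_le_mul_of_nonneg_right h1.le (abs_nonneg (L - 4 * η * T))]

variable {w : ℝ → E3 → ℝ} {I Z : Set ℝ} {A : ℝ}

lemma green_cv (h : IsW0 w I Z A) (hη : 0 < η) (y : E3) {T t₁ t₀ : ℝ} (h1 : t₁ ∈ I \ Z)
    (h0 : t₀ ∈ I \ Z) (h10 : t₁ ≤ t₀) (hT : t₀ < T) :
    ∫ x, Phi y T t₀ x * cv η (vv η L n t₀ x) ∂(ar (w t₀))
      ≤ ∫ x, Phi y T t₁ x * cv η (vv η L n t₁ x) ∂(ar (w t₁)) := by
  obtain ⟨ρ, -, hρ⟩ := exists_supp hη L n (t₁ - 1)
  have key := (P218WC.green_core h (J := I ∩ Ioo (t₁ - 1) T) (ψ := Phi y T)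
    (f := fun t x => cv η (vv η L n t x)) (h.isOpen.inter isOpen_Ioo)
    (h.conn.inter ordConnected_Ioo) inter_subset_left (contDiffOn_Phi y T fun t ht => ht.2.2)
    ((contDiff_cv η).comp (contDiff_vv η L n)).contDiffOn (isCompact_closedBall 0 ρ)
    (Or.inr fun t ht x hx => hρ t ht.2.1.le x (by simpa using hx))
    (a := t₁) (b := t₀) ⟨⟨h1.1, by linarith, by linarith⟩, h1.2⟩ ⟨⟨h0.1, by linarith, hT⟩, h0.2⟩ h10
    fun t ht x => mul_nonneg (Phi_pos y (ht.2.trans_lt hT) x).le (cv_nonneg hη _)).2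
  refine sub_nonpos.1 (key.trans ?_)
  rw [← neg_nonneg, ← intervalIntegral.integral_neg]
  refine intervalIntegral.integral_nonneg h10 fun t ht => neg_nonneg.2 (integral_nonpos_of_ae ?_)
  have hI : t ∈ I := h.conn.out h1.1 h0.1 ht
  have hT' := ht.2.trans_lt hT
  filter_upwards [ae_restrict_mem (isClosed_eq (h.slice hI).smooth.continuous
    continuous_const).measurableSet] with x hx
  have hn := ((h.slice hI).eik x hx).self_of_nhds
  rw [adj_Phi w y hT' hn]
  exact add_nonpos (mul_nonpos_of_nonneg_of_nonpos (Phi_pos y hT' x).le (heat_cv hη w hn))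
    (mul_nonpos_of_nonneg_of_nonpos (cv_nonneg hη _) (neg_nonpos.2 (dsp_nonneg w y hT' x)))

/-- weighted monotonicity at a point of the flow -/
theorem sub_flow (h : IsW0 w I Z A) (hη : 0 < η) {y : E3} {t₁ t₀ : ℝ} (h1 : t₁ ∈ I \ Z)
    (h0 : t₀ ∈ I) (hy : w t₀ y = 0) (h10 : t₁ < t₀) :
    cv η (vv η L n t₀ y) ≤ ∫ x, Phi y t₀ t₁ x * cv η (vv η L n t₁ x) ∂(ar (w t₁)) := by
  have h0' : t₀ ∈ I \ Z := ⟨h0, h.notMem hy⟩
  obtain ⟨a, b, hab, -, hf⟩ := h.loc h0'
  obtain ⟨ρ, -, hρ⟩ := exists_supp hη L n t₁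
  have := (h.ratio t₁ h1.1).locFin
  have := (h.ratio t₀ h0).locFin
  have hc := cont_cv η L n
  have hs : Continuous fun s : ℝ =>
      ∫ x, Phi y (t₀ + s ^ 2) t₁ x * cv η (vv η L n t₁ x) ∂(ar (w t₁)) := by
    have hp : ∀ s : ℝ, 0 < t₀ + s ^ 2 - t₁ := fun s => by nlinarith [sq_nonneg s]
    have h2 := continuous_parametric_integral_of_continuous (μ := ar (w t₁))
      (f := fun (s : ℝ) x => Phi y (t₀ + s ^ 2) t₁ x * cv η (vv η L n t₁ x))
      (Continuous.mul (Continuous.div (Real.continuous_exp.comp (Continuous.div (by fun_prop)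
        (by fun_prop) fun p => by have := hp p.1; positivity)) (by fun_prop)
        fun p => by have := hp p.1; positivity) ((hc t₁).comp continuous_snd))
      (isCompact_closedBall 0 ρ)
    refine h2.congr fun s => setIntegral_eq_integral_of_forall_compl_eq_zero fun x hx => ?_
    rw [hρ t₁ le_rfl x (by simpa using hx), mul_zero]
  refine le_of_forall_lt_imp_le_of_dense fun c hc' => ?_
  have h3 := (hs.tendsto 0).mono_left (nhdsWithin_le_nhds (s := Ioi 0))
  simp only [ne_eq, OfNat.ofNat_ne_zero, not_false_eq_true, zero_pow, add_zero] at h3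
  refine ge_of_tendsto h3 ?_
  filter_upwards [static_dens hf.toIsFlow hab hy (hc t₀).continuousAt hc',
    self_mem_nhdsWithin] with s hs1 hs
  have hs' : t₀ < t₀ + s ^ 2 := lt_add_of_pos_right _ (pow_pos hs 2)
  have h4 : ∀ x, 0 ≤ Phi y (t₀ + s ^ 2) t₀ x * cv η (vv η L n t₀ x) := fun x =>
    mul_nonneg (Phi_pos y hs' x).le (cv_nonneg hη _)
  have h5 : Integrable (fun x => Phi y (t₀ + s ^ 2) t₀ x * cv η (vv η L n t₀ x)) (ar (w t₀)) :=
    ((continuous_Phi _ _ _).mul (hc t₀)).integrable_of_hasCompactSupport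
      (P218UU.hcs (ρ := ρ) fun x hx => by simp [hρ t₀ h10.le x hx])
  rw [← ofReal_integral_eq_lintegral_ofReal h5 (Eventually.of_forall h4),
    ENNReal.ofReal_le_ofReal_iff (integral_nonneg h4)] at hs1
  exact hs1.trans (green_cv h hη y h1 h0' h10.le hs')

lemma int_sq {μ : Measure E3} (hA : 0 ≤ A) (h : AR μ A) (y : E3) {T : ℝ} (hT : 0 < T) (L : ℝ)
    (n : E3) : Integrable (fun x => (L + ⟪x, n⟫) ^ 2 * Real.exp (-‖x - y‖ ^ 2 / (4 * T))) μ := by
  have h1 := (tail hA h y (Real.sqrt_pos.2 hT)).1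
  rw [Real.sq_sqrt hT.le] at h1
  refine (h1.const_mul (2 * (L + ⟪y, n⟫) ^ 2 + 16 * T * ‖n‖ ^ 2)).mono' (by fun_prop)
    (Eventually.of_forall fun x => ?_)
  have e1 : Real.exp (-‖x - y‖ ^ 2 / (4 * T))
      = Real.exp (-(‖x - y‖ ^ 2 / (8 * T))) * Real.exp (-‖x - y‖ ^ 2 / (8 * T)) := by
    rw [← Real.exp_add]
    congr 1
    field_simp
    ring
  rw [Real.norm_eq_abs, abs_of_nonneg (by positivity), e1, ← mul_assoc]
  refine mul_le_mul_of_nonneg_right ?_ (Real.exp_pos _).le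
  have e2 : ⟪x, n⟫ = ⟪y, n⟫ + ⟪x - y, n⟫ := by rw [inner_sub_left]; ring
  have e3 : ⟪x - y, n⟫ ^ 2 ≤ ‖x - y‖ ^ 2 * ‖n‖ ^ 2 := by
    rw [← mul_pow, ← sq_abs]
    exact pow_le_pow_left₀ (abs_nonneg _) (abs_real_inner_le_norm _ _) 2
  have e4 : 0 ≤ ‖x - y‖ ^ 2 / (8 * T) := by positivity
  have e5 : Real.exp (-(‖x - y‖ ^ 2 / (8 * T))) ≤ 1 := Real.exp_le_one_iff.2 (by linarith)
  have e6 : ‖x - y‖ ^ 2 * Real.exp (-(‖x - y‖ ^ 2 / (8 * T))) ≤ 8 * T := by
    rw [Real.exp_neg, ← div_eq_mul_inv, div_le_iff₀ (Real.exp_pos _), ← div_le_iff₀' (by positivity)]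
    linarith [Real.add_one_le_exp (‖x - y‖ ^ 2 / (8 * T))]
  have e7 : (L + ⟪x, n⟫) ^ 2 ≤ 2 * (L + ⟪y, n⟫) ^ 2 + 2 * (‖x - y‖ ^ 2 * ‖n‖ ^ 2) := by
    rw [e2]
    nlinarith [sq_nonneg (L + ⟪y, n⟫ - ⟪x - y, n⟫)]
  refine (mul_le_mul_of_nonneg_right e7 (Real.exp_pos _).le).trans ?_
  nlinarith [mul_le_mul_of_nonneg_left e5 (sq_nonneg (L + ⟪y, n⟫)),
    mul_le_mul_of_nonneg_left e6 (sq_nonneg ‖n‖)]

variable {a : ℝ} {s : ℕ → ℝ} {ν : Measure E3}

lemma ev_hit (h : TanW w Z s ν) {y : E3} (hy : y ∈ ν.support) {r : ℝ} (hr : 0 < r) :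
    ∀ᶠ i in atTop, ∃ x, dist x y < r ∧ resc w (s i) (-1) x = 0 := by
  have := h.locFin
  have h1 : 0 < ∫ x, kk (r⁻¹ • (x - y)) ∂ν := by
    rw [integral_pos_iff_support_of_nonneg (fun x => kk_nonneg _) (integrable_kk ν y hr)]
    refine (Measure.mem_support_iff_forall y).1 hy _ ((continuous_kk_scale y r).isOpen_support.mem_nhds ?_)
    simp [kk, Real.pi_ne_zero]
  filter_upwards [(h.weak _ (continuous_kk_scale y r) (hasCompactSupport_kk y hr)).eventually
    (lt_mem_nhds h1)] with i hi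
  by_contra! hn
  refine hi.ne' (setIntegral_eq_zero_of_forall_eq_zero fun x hx => kk_scale_zero hr ?_)
  by_contra! h2
  exact hn x (by rwa [dist_eq_norm]) hx

lemma sub_cv (hT : TangW) (ha : a < 0) (h : IsW0 w (Ioo a 0) Z A) (hs : TanW w Z s ν)
    (hη : 0 < η) {y : E3} (hy : y ∈ ν.support) {c : ℝ} (hc : 1 < c) :
    cv η (vv η L n (-1) y)
      ≤ ∫ x, Phi y (-1) (-c ^ 2) x * cv η (vv η L n (-c ^ 2) x) ∂(scal ν c) := by
  have hc0 : 0 < c := by linarith
  have hc2 : 1 < c ^ 2 := one_lt_pow₀ hc two_ne_zero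
  obtain ⟨φ, hφ, h1⟩ := extraction_forall_of_eventually
    fun k : ℕ => ev_hit hs hy (r := 1 / ((k : ℝ) + 1)) (by positivity)
  choose x hx1 hx2 using h1
  have hs' : TanW w Z (s ∘ φ) ν :=
    ⟨P218UZ.tanSeq_comp hs.toTanSeq hφ.tendsto_atTop, fun i => hs.regT _⟩
  have hW := fun i => P218WC.calcW.resc0 w a Z A h (s (φ i)) (hs.pos _)
  have h2 : ∀ k : ℕ, ∃ t ∈ Ioo (-c ^ 2 - 1 / ((k : ℝ) + 1)) (-c ^ 2), t ∉ zs Z (s (φ k)) :=
    fun k => exists_notMem (hW k).null (sub_lt_self _ (by positivity))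
  choose τ hτ1 hτ2 using h2
  have l0 : Tendsto (fun k : ℕ => 1 / ((k : ℝ) + 1)) atTop (𝓝 0) :=
    tendsto_one_div_add_atTop_nhds_zero_nat
  have hk : ∀ k : ℕ, 1 / ((k : ℝ) + 1) ≤ 1 := fun k =>
    div_le_one_of_le₀ (by linarith [k.cast_nonneg (α := ℝ)]) (by positivity)
  have l1 : Tendsto x atTop (𝓝 y) :=
    tendsto_iff_dist_tendsto_zero.2 (squeeze_zero (fun _ => dist_nonneg) (fun k => (hx1 k).le) l0)
  have l2 : Tendsto τ atTop (𝓝 (-c ^ 2)) :=
    tendsto_of_tendsto_of_tendsto_of_le_of_le (by simpa using l0.const_sub (-c ^ 2))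
      tendsto_const_nhds (fun k => (hτ1 k).1.le) fun k => (hτ1 k).2.le
  have l3 := hT.slow w a Z A ha h _ ν hs' τ _ (by linarith) l2 (Eventually.of_forall hτ2)
  rw [neg_neg, Real.sqrt_sq hc0.le] at l3
  have hI : ∀ᶠ i in atTop, τ i ∈ Ioo (a / s (φ i) ^ 2) 0 := by
    filter_upwards [P218UZ.ev_lt hs'.toTanSeq ha (-c ^ 2 - 1)] with i hi
    exact ⟨hi.trans_le (by linarith [(hτ1 i).1, hk i]), by linarith [(hτ1 i).2]⟩
  have hν := P218UZ.AR_scal (hT.ratio w a Z A ha h s ν hs) hc0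
  have := hν.locFin
  obtain ⟨ρ, hρ0, hρ⟩ := exists_supp hη L n (-c ^ 2 - 1)
  have hK : IsCompact (closedBall y 1 ×ˢ Icc (-c ^ 2 - 1) (-c ^ 2)) :=
    (isCompact_closedBall y 1).prod isCompact_Icc
  have hF : ContinuousOn (fun q : (E3 × ℝ) × E3 =>
      Phi q.1.1 (-1) q.1.2 q.2 * cv η (vv η L n q.1.2 q.2))
      ((closedBall y 1 ×ˢ Icc (-c ^ 2 - 1) (-c ^ 2)) ×ˢ univ) := by
    have hp : ∀ q ∈ (closedBall y 1 ×ˢ Icc (-c ^ 2 - 1) (-c ^ 2)) ×ˢ (univ : Set E3),
        0 < -1 - q.1.2 := fun q hq => by linarith [hq.1.2.2]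
    refine ContinuousOn.mul (ContinuousOn.div (Real.continuous_exp.comp_continuousOn
      (ContinuousOn.div (by fun_prop) (by fun_prop) fun q hq => by have := hp q hq; positivity))
      (by fun_prop) fun q hq => by have := hp q hq; positivity) (Continuous.continuousOn ?_)
    exact (contDiff_cv η).continuous.comp (by unfold vv; fun_prop)
  have h0 : ∀ p ∈ closedBall y 1 ×ˢ Icc (-c ^ 2 - 1) (-c ^ 2), ∀ z : E3, ρ < ‖z‖ →
      Phi p.1 (-1) p.2 z * cv η (vv η L n p.2 z) = 0 := fun p hp z hz => by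
    rw [hρ _ hp.2.1 z hz, mul_zero]
  have hp : ∀ k, (x k, τ k) ∈ closedBall y 1 ×ˢ Icc (-c ^ 2 - 1) (-c ^ 2) := fun k =>
    ⟨(hx1 k).le.trans (hk k), by linarith [(hτ1 k).1, hk k], (hτ1 k).2.le⟩
  have l4 := ((continuousOn_integral_of_compact_support (μ := scal ν c)
    (f := fun (p : E3 × ℝ) z => Phi p.1 (-1) p.2 z * cv η (vv η L n p.2 z))
    (isCompact_closedBall 0 ρ) hF fun p z hp hz => h0 p hp z (by simpa using hz)) (y, -c ^ 2)
    ⟨mem_closedBall_self zero_le_one, by linarith, le_rfl⟩).tendsto.comp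
      (tendsto_nhdsWithin_iff.2 ⟨l1.prodMk_nhds l2, Eventually.of_forall hp⟩)
  refine le_of_forall_pos_le_add fun ε hε => ?_
  refine le_of_tendsto_of_tendsto (((cont_cv η L n (-1)).tendsto y).comp l1) (l4.add_const ε) ?_
  filter_upwards [P218UU.unif_compact (hI.mono fun i hi => (hW i).ratio _ hi) hν l3 hK
    (fun (p : E3 × ℝ) z => Phi p.1 (-1) p.2 z * cv η (vv η L n p.2 z)) hρ0 hF h0 hε, hI]
    with i h3 h4
  have h5 := sub_flow (L := L) (n := n) (hW i) hη ⟨h4, hτ2 i⟩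
    ⟨by linarith [h4.1, (hτ1 i).2], by norm_num⟩ (hx2 i) (by linarith [(hτ1 i).2])
  have h6 := (abs_le.1 (h3 _ (hp i))).2
  simp only [Function.comp_apply] at h6 ⊢
  linarith

theorem subMean (hT : TangW) (ha : a < 0) (h : IsW0 w (Ioo a 0) Z A) (hs : TanW w Z s ν) :
    SubMean ν := by
  intro y hy c hc
  have hc0 : 0 < c := by linarith
  have hc2 : 0 < c ^ 2 - 1 := sub_pos.2 (one_lt_pow₀ hc two_ne_zero)
  have hπ := Real.pi_pos
  have key : ∀ (n : E3) (L : ℝ), 0 < L + ⟪y, n⟫ → (L + ⟪y, n⟫) ^ 2 ≤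
      (∫ x, (L + ⟪x, n⟫) ^ 2 * Real.exp (-‖x - y‖ ^ 2 / (4 * (c ^ 2 - 1))) ∂(scal ν c))
        / (4 * Real.pi * (c ^ 2 - 1)) := by
    intro n L hL
    have l1 : Tendsto (fun η : ℝ => vv η (L - 4 * η * c ^ 2) n (-1) y) (𝓝 0) (𝓝 (L + ⟪y, n⟫)) :=
      Continuous.tendsto' (by unfold vv; fun_prop) _ _ (by simp [vv])
    have l2 := ((l1.pow 2).sub (tendsto_id.mul l1)).mono_left (nhdsWithin_le_nhds (s := Ioi 0))
    rw [zero_mul, sub_zero] at l2
    refine le_of_tendsto l2 ?_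
    filter_upwards [mem_nhdsWithin_of_mem_nhds (tendsto_id.eventually_lt l1 hL),
      self_mem_nhdsWithin] with η h1 hη
    refine (le_cv hη h1.le).trans ((sub_cv hT ha h hs hη hy hc).trans ?_)
    rw [← integral_div]
    refine integral_mono_of_nonneg (Eventually.of_forall fun x => mul_nonneg
      (Phi_pos y (by linarith) x).le (cv_nonneg hη _)) ((int_sq (zero_le_one.trans h.one_le)
        (P218UZ.AR_scal (hT.ratio w a Z A ha h s ν hs) hc0) y hc2 L n).div_const _)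
      (Eventually.of_forall fun x => ?_)
    have h2 : vv η (L - 4 * η * c ^ 2) n (-c ^ 2) x ≤ L + ⟪x, n⟫ := by
      have := mul_nonneg (le_of_lt hη) (sq_nonneg ‖x‖)
      rw [vv]
      linarith
    refine (mul_le_mul_of_nonneg_left (cv_le hη h2) (Phi_pos y (by linarith) x).le).trans_eq ?_
    rw [Phi, show -1 - -c ^ 2 = c ^ 2 - 1 by ring]
    ring
  intro n L
  rcases lt_trichotomy (L + ⟪y, n⟫) 0 with h0 | h0 | h0
  · have := key (-n) (-L) (by rw [inner_neg_right]; linarith)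
    simpa only [inner_neg_right, ← neg_add, neg_sq] using this
  · rw [h0]
    exact (zero_pow two_ne_zero).trans_le (div_nonneg (integral_nonneg fun x => by positivity)
      (by positivity))
  · exact key n L h0

end Vale.Agent.P218WY
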