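import Vale.Agent.P218WY.Sub
import Vale.Agent.P218WC.Mono

/-! If the points of Gaussian density one are regular then so are the points of density close to
one. -/

open MeasureTheory Set Filter Topology Metric
open scoped ENNReal NNReal RealInnerProductSpace ContDiff

namespace Vale.Agent.P218WY

open Vale.Agent.P218UA Vale.Agent.P218UM Vale.Agent.P218WU Vale.Agent.P218WA Vale.Agent.P218UW

variable {w : ℝ → E3 → ℝ} {I Z : Set ℝ} {A C a : ℝ} {s : ℕ → ℝ} {ν : Measure E3}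

lemma gd_lim (hT : TangW) (ha : a < 0) (h : IsW0 w (Ioo a 0) Z A) (hs : TanW w Z s ν) (x : E3)
    {r : ℝ} (hr : 0 < r) : Tendsto (fun i => gd (ar (w (s i ^ 2 * (-1)))) (s i • x) (s i * r))
      atTop (𝓝 (gd ν x r)) := by
  rw [Metric.tendsto_nhds]
  intro ε hε
  filter_upwards [P218UU.gd_lim P218UX.monoThm ((P218UZ.ev_lt hs.toTanSeq ha (-1)).mono fun i hi =>
    (P218WC.calcW.resc0 w a Z A h (s i) (hs.pos i)).ratio (-1) ⟨hi, by norm_num⟩)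
    (hT.ratio w a Z A ha h s ν hs) hs.weak ‖x‖ r r (ε / 2) hr (half_pos hε)] with i hi
  have h1 := hi x le_rfl r ⟨le_rfl, le_rfl⟩
  rw [P218UU.resc_eq, gd_sc (hs.pos i), zero_add] at h1
  exact h1.trans_lt (half_lt_self hε)

lemma ev_mem (ha : a < 0) (hs : TanW w Z s ν) : ∀ᶠ i in atTop, s i ^ 2 * (-1) ∈ Ioo a 0 :=
  (P218UU.tendsto_time hs.pos hs.lim (by norm_num)).eventually (Ioo_mem_nhdsLT ha)

lemma gd_le_flow (hT : TangW) (ha : a < 0) (h : IsW0 w I Z A) (hI : Ioo a 0 ⊆ I)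
    (hs : TanW w Z s ν) {t : ℝ} (ht : t ∈ I \ Z) (h0 : t < 0) (x : E3) {r : ℝ} (hr : 0 < r) :
    gd ν x r ≤ gd (ar (w t)) 0 √(-t) := by
  have l1 : Tendsto (fun i => s i • x) atTop (𝓝 0) := by simpa using hs.lim.smul_const x
  have l2 : Tendsto (fun i => √(s i ^ 2 * (r ^ 2 - 1) - t)) atTop (𝓝 √(-t)) := by
    simpa using (((hs.lim.pow 2).mul_const (r ^ 2 - 1)).sub_const t).sqrt
  refine le_of_tendsto_of_tendsto (gd_lim hT ha (h.mono isOpen_Ioo ordConnected_Ioo hI) hs x hr)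
    (tendsto_gd (zero_le_one.trans h.one_le) (h.ratio t ht.1) (Real.sqrt_pos.2 (neg_pos.2 h0))
      l1 l2) ?_
  filter_upwards [ev_mem ha hs, ev_mem h0 hs] with i h1 h2
  have hp := mul_pos (hs.pos i) hr
  have h3 := P218WC.gd_anti (t₀ := s i ^ 2 * (r ^ 2 - 1)) h (s i • x) ht (hI h1) h2.1.le
    (by nlinarith [pow_pos hp 2])
  rwa [show s i ^ 2 * (r ^ 2 - 1) - s i ^ 2 * (-1) = (s i * r) ^ 2 by ring,
    Real.sqrt_sq hp.le] at h3

lemma th_lim (hT : TangW) (ha : a < 0) (h : IsW0 w (Ioo a 0) Z A) (hs : TanW w Z s ν) :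
    Tendsto (fun i => gd (ar (w (s i ^ 2 * (-1)))) 0 √(-(s i ^ 2 * (-1)))) atTop
      (𝓝 (gd ν 0 1)) :=
  (gd_lim hT ha h hs 0 one_pos).congr fun i => by
    rw [smul_zero, mul_one, mul_neg_one, neg_neg, Real.sqrt_sq (hs.pos i).le]

lemma upper0 (hT : TangW) (hF : FlatW) (A : ℝ) : ∃ ε > 0, ∀ w I Z C, IsG0 w I Z A C → 0 ∈ I →
    ∀ t₁ ∈ I \ Z, t₁ < 0 → gd (ar (w t₁)) 0 √(-t₁) ≤ 1 + ε → ∀ δ > 0,
    ∃ t ∈ I \ Z, t < 0 ∧ gd (ar (w t)) 0 √(-t) < 1 + δ := by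
  obtain ⟨ε, hε, hε', hP⟩ := planar (P218UX.cT * A)
  refine ⟨ε, hε, fun w I Z C h h0 t₁ h1 ha hg δ hδ => ?_⟩
  have hI : Ioo t₁ 0 ⊆ I := Ioo_subset_Icc_self.trans (h.conn.out h1.1 h0)
  have h' := h.mono isOpen_Ioo ordConnected_Ioo hI
  have hA := zero_le_one.trans h.one_le
  have h2 : ∀ k : ℕ, ∃ t ∈ Ioo (-(1 / ((k : ℝ) + 1))) 0, t ∉ Z := fun k =>
    exists_notMem h.null (neg_lt_zero.2 (by positivity))
  choose τ hτ1 hτ2 using h2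
  have l1 : Tendsto τ atTop (𝓝 0) :=
    tendsto_of_tendsto_of_tendsto_of_le_of_le
      (by simpa using (tendsto_one_div_add_atTop_nhds_zero_nat (𝕜 := ℝ)).neg)
      tendsto_const_nhds (fun k => (hτ1 k).1.le) fun k => (hτ1 k).2.le
  obtain ⟨φ, ν, -, hs⟩ := hT.compact w t₁ Z A ha h'.toIsW0 (fun k => √(-τ k))
    (fun k => Real.sqrt_pos.2 (neg_pos.2 (hτ1 k).2)) (by simpa using l1.neg.sqrt) fun k => by
      rw [Real.sq_sqrt (neg_pos.2 (hτ1 k).2).le, mul_neg_one, neg_neg]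
      exact hτ2 k
  have hν := hT.ratio w t₁ Z A ha h'.toIsW0 _ ν hs
  have l2 := th_lim hT ha h'.toIsW0 hs
  have h3 : ∀ x r, 0 < r → gd ν x r ≤ gd ν 0 1 := fun x r hr =>
    ge_of_tendsto l2 ((ev_mem ha hs).mono fun i hi =>
      gd_le_flow hT ha h.toIsW0 hI hs ⟨hI hi, hs.regT i⟩ hi.2 x hr)
  have h4 := (gd_le_flow hT ha h.toIsW0 hI hs h1 ha 0 one_pos).trans hg
  have h5 := P218UX.tail hA hν 0 one_pos
  simp only [sub_zero, one_pow, mul_one] at h5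
  obtain ⟨n, hn, h6⟩ := hP ν h5.1 h5.2 (fun x r hr _ => h3 x r hr) h4 (subMean hT ha h'.toIsW0 hs)
  have h7 := gd_le_one hA hν (hF w t₁ Z A C ha h' _ ν hs) hn h6 fun x r hr => by
    linarith [h3 x r hr]
  obtain ⟨i, h8, h9⟩ := ((ev_mem ha hs).and (l2.eventually (gt_mem_nhds
    (show gd ν 0 1 < 1 + δ by linarith)))).exists
  exact ⟨_, ⟨hI h8, hs.regT i⟩, h8.2, h9⟩

lemma upper (hT : TangW) (hF : FlatW) (A : ℝ) : ∃ ε > 0, ∀ w I Z C, IsG0 w I Z A C →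
    ∀ p : ℝ × E3, p.1 ∈ I → ∀ t₁ ∈ I \ Z, t₁ < p.1 → gd (ar (w t₁)) p.2 √(p.1 - t₁) ≤ 1 + ε →
    ∀ δ > 0, ∃ t ∈ I \ Z, t < p.1 ∧ gd (ar (w t)) p.2 √(p.1 - t) < 1 + δ := by
  obtain ⟨ε, hε, H⟩ := upper0 hT hF A
  refine ⟨ε, hε, fun w I Z C h p hp t₁ h1 h2 h3 δ hδ => ?_⟩
  have e : ∀ t r, gd (ar (rs w p.1 p.2 1 t)) 0 r = gd (ar (w (p.1 + t))) p.2 r := fun t r => by
    rw [rs, gd_sc one_pos]
    simp
  obtain ⟨t, h4, h5, h6⟩ := H _ _ _ C (P218WC.rsG0 h p.1 p.2 one_pos) (by simpa [pre] using hp)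
    (t₁ - p.1) (by simpa [pre] using h1) (by linarith) (by simpa [e] using h3) δ hδ
  exact ⟨p.1 + t, by simpa [pre] using h4, by linarith, by simpa [e] using h6⟩

lemma lower (h : IsW0 w I Z A) {p : ℝ × E3}
    (hp : p ∈ closure {q : ℝ × E3 | q.1 ∈ I ∧ w q.1 q.2 = 0}) {t : ℝ} (ht : t ∈ I \ Z)
    (h0 : t < p.1) : 1 ≤ gd (ar (w t)) p.2 √(p.1 - t) := by
  refine isClosed_Ici.mem_of_frequently_of_tendsto (b := 𝓝 p)
    (f := fun q : ℝ × E3 => gd (ar (w t)) q.2 √(q.1 - t)) ?_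
    (tendsto_gd (zero_le_one.trans h.one_le) (h.ratio t ht.1) (Real.sqrt_pos.2 (sub_pos.2 h0))
      (continuous_snd.tendsto p) (Continuous.tendsto (by fun_prop) p))
  refine ((mem_closure_iff_frequently.1 hp).and_eventually
    ((continuous_fst.tendsto p).eventually (lt_mem_nhds h0))).mono fun q hq => ?_
  exact P218WC.clear h hq.1.1 hq.1.2 ht hq.2

lemma regAt_of_notMem (h : IsW0 w I Z A) {p : ℝ × E3} (hI : p.1 ∈ I)
    (hp : p ∉ closure {q : ℝ × E3 | q.1 ∈ I ∧ w q.1 q.2 = 0}) : RegAt w Z p :=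
  ⟨fun _ => 1, (closure {q : ℝ × E3 | q.1 ∈ I ∧ w q.1 q.2 = 0})ᶜ ∩ I ×ˢ univ, ⟨hp, hI, trivial⟩,
    isClosed_closure.isOpen_compl.inter (h.isOpen.prod isOpen_univ), contDiffOn_const,
    fun _ _ h0 => absurd h0 one_ne_zero,
    fun _ hq _ => iff_of_false one_ne_zero fun h0 => hq.1 (subset_closure ⟨hq.2.1, h0⟩),
    fun _ _ _ h0 => absurd h0 one_ne_zero⟩

lemma IsW0.le (h : IsW0 w I Z A) {A' : ℝ} (hA : A ≤ A') : IsW0 w I Z A' :=
  { h with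
    one_le := h.one_le.trans hA
    ratio := fun t ht x r hr => (h.ratio t ht x r hr).trans
      (ENNReal.ofReal_le_ofReal (mul_le_mul_of_nonneg_right hA (sq_nonneg r))) }

theorem unitW (hT : TangW) (hF : FlatW) : UnitW := by
  intro w I Z A C h hU
  obtain ⟨ε, hε, H⟩ := upper hT hF A
  refine ⟨max A (1 / ε), ⟨IsW0.le h.toIsW0 (le_max_left _ _), fun p hp t₁ h1 h2 h3 => ?_⟩,
    h.one_le', h.lgb⟩
  by_cases hc : p ∈ closure {q : ℝ × E3 | q.1 ∈ I ∧ w q.1 q.2 = 0}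
  swap
  · exact regAt_of_notMem h.toIsW0 hp hc
  refine hU p hp (Metric.tendsto_nhds.2 fun δ hδ => ?_)
  have h4 : 1 / max A (1 / ε) ≤ ε :=
    (one_div_le (lt_max_of_lt_right (by positivity)) hε).2 (le_max_right _ _)
  obtain ⟨t, h5, h6, h7⟩ := H w I Z C h p hp t₁ h1 h2 (by linarith) δ hδ
  have l : Tendsto (fun r : ℝ => p.1 - r ^ 2) (𝓝 0) (𝓝 p.1) :=
    Continuous.tendsto' (by fun_prop) _ _ (by simp)
  filter_upwards [mem_nhdsWithin_of_mem_nhds (l.eventually (lt_mem_nhds h6)),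
    self_mem_nhdsWithin] with r h8 hr
  have h9 : p.1 - r ^ 2 < p.1 := sub_lt_self _ (pow_pos hr.1 2)
  have hI : p.1 - r ^ 2 ∈ I := h.conn.out h5.1 hp ⟨h8.le, h9.le⟩
  have e1 := lower h.toIsW0 hc ⟨hI, hr.2⟩ h9
  have e2 := P218WC.gd_anti h.toIsW0 p.2 h5 hI h8.le h9
  rw [sub_sub_cancel, Real.sqrt_sq hr.1.le] at e1 e2
  rw [Real.dist_eq, abs_of_nonneg (sub_nonneg.2 e1)]
  linarith

end Vale.Agent.P218WY
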